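import Mathlib

namespace Vale.Agent.Lib.P069

/-- A real Hilbert space is reflexive. -/
theorem hilbert_reflexive (H : Type*) [NormedAddCommGroup H] [InnerProductSpace ℝ H]
    [CompleteSpace H] : Function.Surjective (NormedSpace.inclusionInDoubleDual ℝ H) := by
  intro Ψ
  let φ : H →L[ℝ] ℝ := LinearMap.mkContinuous
    { toFun := fun x => Ψ (InnerProductSpace.toDual ℝ H x)
      map_add' := by
        intro x y
        simp
      map_smul' := by
        intro c x
        simp } ‖Ψ‖ (by
      intro x
      have h := Ψ.le_opNorm (InnerProductSpace.toDual ℝ H x)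
      simpa using h)
  refine ⟨(InnerProductSpace.toDual ℝ H).symm φ, ?_⟩
  ext f
  rw [NormedSpace.dual_def]
  obtain ⟨z, rfl⟩ := (InnerProductSpace.toDual ℝ H).surjective f
  rw [InnerProductSpace.toDual_apply_apply, real_inner_comm,
    InnerProductSpace.toDual_symm_apply]
  rfl

/-- Reflexivity is transported by a continuous linear equivalence. -/
theorem reflexive_of_equiv {E F : Type*} [NormedAddCommGroup E] [NormedSpace ℝ E]
    [NormedAddCommGroup F] [NormedSpace ℝ F] (e : E ≃L[ℝ] F)
    (h : Function.Surjective (NormedSpace.inclusionInDoubleDual ℝ E)) :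
    Function.Surjective (NormedSpace.inclusionInDoubleDual ℝ F) := by
  intro Ψ
  let T : StrongDual ℝ E →L[ℝ] StrongDual ℝ F :=
    (ContinuousLinearMap.compL ℝ F E ℝ).flip (e.symm : F →L[ℝ] E)
  obtain ⟨x, hx⟩ := h (Ψ.comp T)
  refine ⟨e x, ?_⟩
  ext f
  rw [NormedSpace.dual_def]
  have h1 := congrArg (fun Φ : StrongDual ℝ (StrongDual ℝ E) => Φ (f.comp (e : E →L[ℝ] F))) hx
  simp only [NormedSpace.dual_def, ContinuousLinearMap.comp_apply,
    ContinuousLinearEquiv.coe_coe] at h1
  rw [h1]
  congr 1
  ext y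
  simp [T]

end Vale.Agent.Lib.P069
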